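import Vale.Agent.Lib.P037.Defs
import Vale.Agent.Lib.P037.Cx.Final

namespace Vale.Agent.Results.P037.Disproof

open Vale.Agent.P037 Filter Topology

lemma Tn_le (N : ℕ) : (Cx.Tn 13 N : ℝ) ≤ 106 * ((N : ℝ) + 1) := by
  unfold Cx.Tn
  push_cast
  have : (0 : ℝ) ≤ N := Nat.cast_nonneg _
  nlinarith

/-- **The polynomial ordered removal conjecture for binary matrices is false.** -/
theorem result : ¬ (∀ k : ℕ, 1 ≤ k → ∀ H : Matrix (Fin k) (Fin k) Bool,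
    ∃ c C : ℝ, 0 < c ∧ 0 < C ∧
      ∀ n : ℕ, 1 ≤ n → ∀ ε : ℝ, 0 < ε → ε < 1 → ∀ A : Matrix (Fin n) (Fin n) Bool,
        ε ≤ freeDist H A → c * ε ^ C * (n : ℝ) ^ (2 * k) ≤ (copyCount H A : ℝ)) := by
  intro hconj
  obtain ⟨c, C, hc, hC, h⟩ := hconj 13 (by norm_num) (Cx.coId 13)
  set m : ℕ := ⌈C⌉₊ with hm
  have hCm : C ≤ m := Nat.le_ceil _
  -- the key inequality for every depth
  have key : ∀ N : ℕ, c ≤ (3 * 106 ^ 2) ^ m * 4 *
      ((((N + 1 : ℕ) : ℝ) ^ (2 * m)) * (1 / 4 : ℝ) ^ (N + 1)) := by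
    intro N
    have hTpos : 0 < Cx.Tn 13 N := by unfold Cx.Tn; omega
    have hTR1 : (1 : ℝ) ≤ Cx.Tn 13 N := by exact_mod_cast hTpos
    obtain ⟨n, hn⟩ : ∃ n, n = Cx.Tn 13 N * (2 ^ N * 1) := ⟨_, rfl⟩
    obtain ⟨A, hA1, hA2⟩ := Cx.construction' 13 le_rfl N 1 n le_rfl hn
    have hnpos : 0 < n := by rw [hn]; positivity
    set ε : ℝ := 1 / (3 * (Cx.Tn 13 N : ℝ) ^ 2) with hε
    have h3T : (3 : ℝ) ≤ 3 * (Cx.Tn 13 N : ℝ) ^ 2 := by nlinarith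
    have hε0 : 0 < ε := by rw [hε]; positivity
    have hε1 : ε < 1 := by
      rw [hε, div_lt_one (by positivity)]
      linarith
    have h1 := (h n hnpos ε hε0 hε1 A hA1).trans hA2
    have hnR : (0 : ℝ) < (n : ℝ) ^ (2 * 13) := by positivity
    have h2 : c * ε ^ C ≤ (1 / 4) ^ N := le_of_mul_le_mul_right h1 hnR
    have h3 : ε ^ (m : ℝ) ≤ ε ^ C := Real.rpow_le_rpow_of_exponent_ge hε0 hε1.le hCm
    rw [Real.rpow_natCast] at h3
    have h4 : c * ε ^ m ≤ (1 / 4) ^ N := le_trans (by gcongr) h2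
    have h5 : ε ^ m = 1 / (3 * (Cx.Tn 13 N : ℝ) ^ 2) ^ m := by
      rw [hε, div_pow, one_pow]
    rw [h5, mul_one_div, div_le_iff₀ (by positivity)] at h4
    calc c ≤ (1 / 4) ^ N * (3 * (Cx.Tn 13 N : ℝ) ^ 2) ^ m := h4
      _ ≤ (1 / 4) ^ N * (3 * (106 * ((N : ℝ) + 1)) ^ 2) ^ m := by
          gcongr
          exact Tn_le N
      _ = (3 * 106 ^ 2) ^ m * 4 *
          ((((N + 1 : ℕ) : ℝ) ^ (2 * m)) * (1 / 4 : ℝ) ^ (N + 1)) := by
          have e1 : (3 * (106 * ((N : ℝ) + 1)) ^ 2) = (3 * 106 ^ 2) * ((N : ℝ) + 1) ^ 2 := by ring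
          rw [e1, mul_pow, ← pow_mul, pow_succ ((1 : ℝ) / 4) N]
          push_cast
          ring
  have hlim : Tendsto (fun N : ℕ => (3 * 106 ^ 2 : ℝ) ^ m * 4 *
      ((((N + 1 : ℕ) : ℝ) ^ (2 * m)) * (1 / 4 : ℝ) ^ (N + 1))) atTop (𝓝 ((3 * 106 ^ 2) ^ m * 4 * 0)) := by
    apply Tendsto.const_mul
    have h0 := tendsto_pow_const_mul_const_pow_of_abs_lt_one (2 * m) (r := (1 / 4 : ℝ))
      (by rw [abs_of_pos (by norm_num)]; norm_num)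
    exact h0.comp (tendsto_add_atTop_nat 1)
  rw [mul_zero] at hlim
  have := ge_of_tendsto' hlim key
  linarith

end Vale.Agent.Results.P037.Disproof
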