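import Vale.Agent.Results.P037.ExponentialGap

/-!
# P037: an explicit pattern without a polynomial removal bound (definition-free form)
-/

namespace Vale.Agent.Results.P037.ExplicitPattern

open Vale.Agent.P037 Filter Topology

private theorem copies_eq {k n : ℕ} (H : Fin k → Fin k → Bool) (A : Fin n → Fin n → Bool) :
    Nat.card {q : (Fin k ↪o Fin n) × (Fin k ↪o Fin n) // ∀ i j, A (q.1 i) (q.2 j) = H i j} =
      copyCount H A := by
  unfold copyCount
  refine Nat.card_congr
    { toFun := fun q => ⟨(q.1.1, q.1.2), q.1.1.strictMono, q.1.2.strictMono, q.2⟩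
      invFun := fun p => ⟨(OrderEmbedding.ofStrictMono p.1.1 p.2.1,
        OrderEmbedding.ofStrictMono p.1.2 p.2.2.1), p.2.2.2⟩
      left_inv := fun q => rfl
      right_inv := fun p => rfl }

private theorem diff_eq {n : ℕ} (A B : Fin n → Fin n → Bool) :
    (Finset.univ.filter fun q : Fin n × Fin n => A q.1 q.2 ≠ B q.1 q.2).card = diffCount A B := by
  unfold diffCount
  rw [Nat.card_eq_fintype_card, Fintype.card_subtype]

/-- **The polynomial ordered binary matrix-removal conjecture is false, for an explicit pattern.**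
Let `H` be the `13 × 13` binary matrix whose zeros are exactly its diagonal entries. For all
constants `c, C > 0` (and all `n₀`) there are `n ≥ n₀`, `0 < ε < 1` and a binary `n × n` matrix `A`
such that every `H`-free binary `n × n` matrix `B` differs from `A` in at least `ε n²` entries (that
is, `dist_H(A) ≥ ε`), while the number of ordered copies of `H` in `A` (a strictly increasing choice
`q.1` of `13` rows and a strictly increasing choice `q.2` of `13` columns, on which `A` equals `H`)
is less than `c ε^C n^(2·13)`. -/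
theorem result : ∀ c C : ℝ, 0 < c → 0 < C → ∀ n₀ : ℕ,
    ∃ (n : ℕ) (ε : ℝ) (A : Fin n → Fin n → Bool), n₀ ≤ n ∧ 1 ≤ n ∧ 0 < ε ∧ ε < 1 ∧
      (∀ B : Fin n → Fin n → Bool,
        (¬ ∃ r s : Fin 13 ↪o Fin n, ∀ i j, B (r i) (s j) = decide (i ≠ j)) →
          ε * (n : ℝ) ^ 2 ≤
            ((Finset.univ.filter fun q : Fin n × Fin n => A q.1 q.2 ≠ B q.1 q.2).card : ℝ)) ∧
      (Nat.card {q : (Fin 13 ↪o Fin n) × (Fin 13 ↪o Fin n) //
        ∀ i j, A (q.1 i) (q.2 j) = decide (i ≠ j)} : ℝ) < c * ε ^ C * (n : ℝ) ^ (2 * 13) := by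
  intro c C hc hC n₀
  obtain ⟨a, ha, h⟩ := ExponentialGap.result 13 le_rfl
  -- choice of the scale
  have hlim := tendsto_rpow_mul_exp_neg_mul_atTop_nhds_zero (2 * C) a ha
  have e1 : ∀ᶠ x : ℝ in atTop, x ^ (2 * C) * Real.exp (-a * x) < c :=
    hlim.eventually (gt_mem_nhds hc)
  have e2 : ∀ᶠ x : ℝ in atTop, 1 / a + 1 < x := eventually_gt_atTop _
  obtain ⟨x, hx1, hx2⟩ := (e1.and e2).exists
  have hinv : 0 < 1 / a := by positivity
  have hx : 1 < x := by linarith
  have hx0 : 0 < x := by linarith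
  have hxa : 1 / a < x := by linarith
  have hax : 1 < a * x := by
    rw [div_lt_iff₀ ha] at hxa
    linarith
  have hεa : 1 / x ^ 2 < a := by
    rw [div_lt_iff₀ (by positivity)]
    nlinarith
  obtain ⟨n, hn, A, hA1, hA2⟩ := h (1 / x ^ 2) (by positivity) hεa (n₀ + 1)
  have hsq : Real.sqrt (1 / x ^ 2) = 1 / x := by
    rw [Real.sqrt_div zero_le_one, Real.sqrt_one, Real.sqrt_sq hx0.le]
  have hn1 : 1 ≤ n := by omega
  have hnR : (0 : ℝ) < n := by exact_mod_cast hn1
  refine ⟨n, 1 / x ^ 2, A, by omega, hn1, by positivity, ?_, ?_, ?_⟩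
  · rw [div_lt_one (by positivity)]
    nlinarith
  · intro B hB
    have hfree : IsFree (fun i j : Fin 13 => decide (i ≠ j)) B := by
      unfold IsFree
      rw [← copies_eq, Nat.card_eq_zero]
      left
      exact ⟨fun q => hB ⟨q.1.1, q.1.2, q.2⟩⟩
    have h1 : freeDist (fun i j : Fin 13 => decide (i ≠ j)) A ≤
        (diffCount A B : ℝ) / (n : ℝ) ^ 2 := by
      unfold freeDist
      gcongr
      exact Nat.sInf_le ⟨B, hfree, rfl⟩
    have h2 := hA1.trans h1
    rw [le_div_iff₀ (by positivity)] at h2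
    have h3 : 1 / x ^ 2 * (n : ℝ) ^ 2 ≤ ((diffCount (fun i j => A i j) B : ℕ) : ℝ) := h2
    rw [← diff_eq] at h3
    exact h3
  · have h0 : ((copyCount (fun i j : Fin 13 => decide (i ≠ j)) (fun i j => A i j) : ℕ) : ℝ) ≤
        Real.exp (-(a / Real.sqrt (1 / x ^ 2))) * (n : ℝ) ^ (2 * 13) := hA2
    rw [← copies_eq] at h0
    refine lt_of_le_of_lt h0 ?_
    apply mul_lt_mul_of_pos_right _ (by positivity)
    rw [hsq]
    have h3 : a / (1 / x) = a * x := by field_simp
    have h4 : (1 / x ^ 2 : ℝ) ^ C = (x ^ (2 * C))⁻¹ := by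
      rw [one_div, Real.inv_rpow (by positivity), ← Real.rpow_natCast x 2, ← Real.rpow_mul hx0.le]
      norm_num
    rw [h3, h4, ← div_eq_mul_inv, lt_div_iff₀ (by positivity), mul_comm]
    have h5 : -(a * x) = -a * x := by ring
    rw [h5]
    exact hx1

end Vale.Agent.Results.P037.ExplicitPattern
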