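import Vale.Agent.Lib.P037.Defs
import Vale.Agent.Lib.P037.Cx.Final

namespace Vale.Agent.Results.P037.ExponentialGap

open Vale.Agent.P037

/-- **Exponential lower bound for ordered removal of the complement of the identity.** -/
theorem result : ∀ k : ℕ, 13 ≤ k → ∃ a : ℝ, 0 < a ∧ ∀ ε : ℝ, 0 < ε → ε < a → ∀ n₀ : ℕ,
    ∃ n : ℕ, n₀ ≤ n ∧ ∃ A : Matrix (Fin n) (Fin n) Bool,
      ε ≤ freeDist (fun i j : Fin k => decide (i ≠ j)) A ∧
      (copyCount (fun i j : Fin k => decide (i ≠ j)) A : ℝ) ≤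
        Real.exp (-(a / Real.sqrt ε)) * (n : ℝ) ^ (2 * k) := by
  intro k hk
  have hk1 : (13 : ℝ) ≤ k := by exact_mod_cast hk
  have hk0 : (0 : ℝ) < k := by linarith
  refine ⟨1 / (507 * (k : ℝ) ^ 2), by positivity, ?_⟩
  intro ε hε0 hεa n₀
  set s : ℝ := Real.sqrt ε with hs
  have hs0 : 0 < s := Real.sqrt_pos.mpr hε0
  have hss : s ^ 2 = ε := Real.sq_sqrt hε0.le
  set x : ℝ := 1 / (13 * k * (Real.sqrt 3 * s)) with hx
  have h3 : Real.sqrt 3 ^ 2 = 3 := Real.sq_sqrt (by norm_num)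
  have h30 : 0 < Real.sqrt 3 := Real.sqrt_pos.mpr (by norm_num)
  have h32 : Real.sqrt 3 ≤ 2 := by nlinarith
  have hx1 : 1 ≤ x := by
    rw [hx, le_div_iff₀ (by positivity), one_mul]
    have h4 : (13 * k * (Real.sqrt 3 * s)) ^ 2 ≤ 1 := by
      calc (13 * k * (Real.sqrt 3 * s)) ^ 2 = 169 * (k : ℝ) ^ 2 * (Real.sqrt 3 ^ 2 * s ^ 2) := by
            ring
        _ = 507 * (k : ℝ) ^ 2 * ε := by rw [h3, hss]; ring
        _ ≤ 507 * (k : ℝ) ^ 2 * (1 / (507 * (k : ℝ) ^ 2)) := by gcongr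
        _ = 1 := by field_simp
    have h5 : 0 < 13 * k * (Real.sqrt 3 * s) := by positivity
    nlinarith
  set N : ℕ := ⌊x⌋₊ with hN
  have hNx : (N : ℝ) ≤ x := Nat.floor_le (by linarith)
  have hN1 : 1 ≤ N := by
    rw [hN, Nat.one_le_floor_iff]
    exact hx1
  have hN2 : x / 2 ≤ N := by
    have h6 : x < N + 1 := Nat.lt_floor_add_one x
    have h7 : (1 : ℝ) ≤ N := by exact_mod_cast hN1
    linarith
  obtain ⟨n, hn⟩ : ∃ n, n = Cx.Tn k N * (2 ^ N * (n₀ + 1)) := ⟨_, rfl⟩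
  obtain ⟨A, hA1, hA2⟩ := Cx.construction' k hk N (n₀ + 1) n (by omega) hn
  have hTpos : 0 < Cx.Tn k N := by unfold Cx.Tn; omega
  refine ⟨n, ?_, A, ?_, ?_⟩
  · rw [hn]
    have h8 : 1 ≤ 2 ^ N := Nat.one_le_two_pow
    calc n₀ ≤ 1 * (1 * (n₀ + 1)) := by omega
      _ ≤ Cx.Tn k N * (2 ^ N * (n₀ + 1)) := by gcongr; omega
  · refine le_trans ?_ hA1
    have hT : (Cx.Tn k N : ℝ) ≤ 13 * k * N := by
      have : Cx.Tn k N ≤ 13 * k * N := by
        unfold Cx.Tn
        nlinarith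
      exact_mod_cast this
    have hT0 : (0 : ℝ) < Cx.Tn k N := by exact_mod_cast hTpos
    rw [le_div_iff₀ (by positivity)]
    calc ε * (3 * (Cx.Tn k N : ℝ) ^ 2) ≤ ε * (3 * (13 * k * x) ^ 2) := by
          gcongr
          exact hT.trans (by gcongr)
      _ = 1 := by
          rw [hx]
          have : (13 * (k : ℝ) * (1 / (13 * k * (Real.sqrt 3 * s)))) = 1 / (Real.sqrt 3 * s) := by
            field_simp
          rw [this, div_pow, mul_pow, h3, hss]
          field_simp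
  · refine hA2.trans ?_
    gcongr
    have h9 : ((1 : ℝ) / 4) ^ N ≤ Real.exp (-(N : ℝ)) := by
      have h10 : (1 : ℝ) / 4 ≤ Real.exp (-1) := by
        rw [Real.exp_neg, one_div]
        apply inv_anti₀ (Real.exp_pos 1)
        have := Real.exp_one_lt_d9
        linarith
      calc ((1 : ℝ) / 4) ^ N ≤ (Real.exp (-1)) ^ N := by gcongr
        _ = Real.exp (-(N : ℝ)) := by
            rw [← Real.exp_nat_mul]
            congr 1
            ring
    refine h9.trans (Real.exp_le_exp.mpr (neg_le_neg ?_))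
    refine le_trans ?_ hN2
    rw [hx]
    rw [div_div, div_div, div_le_div_iff₀ (by positivity) (by positivity), one_mul, one_mul]
    have h11 : 13 * (k : ℝ) * (Real.sqrt 3 * s) * 2 ≤ 13 * k * (2 * s) * 2 := by gcongr
    have h12 : 13 * (k : ℝ) * (2 * s) * 2 ≤ 507 * (k : ℝ) ^ 2 * s := by
      have : 52 * (k : ℝ) ≤ 507 * (k : ℝ) ^ 2 := by nlinarith
      nlinarith
    linarith

end Vale.Agent.Results.P037.ExponentialGap
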