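import Vale.Agent.Lib.P037.Defs
import Vale.Agent.Lib.P037.Halves

namespace Vale.Agent.Results.P037.TwoByTwo

open Vale.Agent.P037 Finset

lemma strictMono_two {n : ℕ} (p : Fin 2 → Fin n) : StrictMono p ↔ p 0 < p 1 := by
  constructor
  · intro h
    exact h (by decide)
  · intro h i j hij
    fin_cases i <;> fin_cases j
    · exact absurd hij (by decide)
    · exact h
    · exact absurd hij (by decide)
    · exact absurd hij (by decide)

lemma isCopy_iff {n : ℕ} (H : Matrix (Fin 2) (Fin 2) Bool) (A : Matrix (Fin n) (Fin n) Bool)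
    (p : (Fin 2 → Fin n) × (Fin 2 → Fin n)) :
    IsCopy H A p ↔ CpH (H 0 0) (H 0 1) (H 1 0) (H 1 1) (fun r c => A r c = true)
      (p.1 0) (p.1 1) (p.2 0) (p.2 1) := by
  unfold IsCopy CpH
  rw [strictMono_two, strictMono_two]
  simp only [Fin.forall_fin_two]
  rw [← Bool.eq_iff_iff, ← Bool.eq_iff_iff, ← Bool.eq_iff_iff, ← Bool.eq_iff_iff]
  tauto

lemma copyCount_eq {n : ℕ} (hn : 1 ≤ n) (H : Matrix (Fin 2) (Fin 2) Bool)
    (A : Matrix (Fin n) (Fin n) Bool) :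
    (copyCount H A : ℝ) =
      pr (fun x : (Fin n × Fin n) × (Fin n × Fin n) =>
        CpH (H 0 0) (H 0 1) (H 1 0) (H 1 1) (fun r c => A r c = true) x.1.1 x.1.2 x.2.1 x.2.2) *
        (n : ℝ) ^ 4 := by
  classical
  have h1 := pr_equiv (Equiv.prodCongr (finTwoArrowEquiv (Fin n)) (finTwoArrowEquiv (Fin n)))
    (fun x : (Fin n × Fin n) × (Fin n × Fin n) =>
        CpH (H 0 0) (H 0 1) (H 1 0) (H 1 1) (fun r c => A r c = true) x.1.1 x.1.2 x.2.1 x.2.2)
  rw [← h1]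
  have h2 : (fun ω : (Fin 2 → Fin n) × (Fin 2 → Fin n) =>
      CpH (H 0 0) (H 0 1) (H 1 0) (H 1 1) (fun r c => A r c = true)
      ((Equiv.prodCongr (finTwoArrowEquiv (Fin n)) (finTwoArrowEquiv (Fin n))) ω).1.1
      ((Equiv.prodCongr (finTwoArrowEquiv (Fin n)) (finTwoArrowEquiv (Fin n))) ω).1.2
      ((Equiv.prodCongr (finTwoArrowEquiv (Fin n)) (finTwoArrowEquiv (Fin n))) ω).2.1
      ((Equiv.prodCongr (finTwoArrowEquiv (Fin n)) (finTwoArrowEquiv (Fin n))) ω).2.2) =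
      fun ω => IsCopy H A ω := by
    funext ω
    exact propext (isCopy_iff H A ω).symm
  rw [h2, pr_eq]
  unfold copyCount
  rw [Nat.card_eq_fintype_card, Fintype.card_subtype]
  have hn0 : (n : ℝ) ≠ 0 := by
    have : (0 : ℝ) < n := by exact_mod_cast hn
    exact this.ne'
  simp only [Fintype.card_prod, Fintype.card_fun, Fintype.card_fin]
  push_cast
  field_simp

lemma diffCount_eq {n : ℕ} (hn : 1 ≤ n) (A B : Matrix (Fin n) (Fin n) Bool) :
    (diffCount A B : ℝ) =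
      pr (fun x : Fin n × Fin n => ¬ (A x.1 x.2 = true ↔ B x.1 x.2 = true)) * (n : ℝ) ^ 2 := by
  classical
  unfold diffCount
  rw [pr_eq, Nat.card_eq_fintype_card, Fintype.card_subtype]
  have hn0 : (n : ℝ) ≠ 0 := by
    have : (0 : ℝ) < n := by exact_mod_cast hn
    exact this.ne'
  have h : (univ.filter fun q : Fin n × Fin n => A q.1 q.2 ≠ B q.1 q.2) =
      (univ.filter fun q : Fin n × Fin n => ¬ (A q.1 q.2 = true ↔ B q.1 q.2 = true)) := by
    apply filter_congr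
    intro q _
    rw [ne_eq, Bool.eq_iff_iff]
  rw [h]
  simp only [Fintype.card_prod, Fintype.card_fin]
  push_cast
  field_simp

/-- **Polynomial ordered removal lemma for all `2 × 2` patterns.** -/
theorem result : ∀ H : Matrix (Fin 2) (Fin 2) Bool, ∃ c C : ℝ, 0 < c ∧ 0 < C ∧
    ∀ n : ℕ, 1 ≤ n → ∀ ε : ℝ, 0 < ε → ε < 1 → ∀ A : Matrix (Fin n) (Fin n) Bool,
      ε ≤ freeDist H A → c * ε ^ C * (n : ℝ) ^ (2 * 2) ≤ (copyCount H A : ℝ) := by
  classical
  intro H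
  obtain ⟨Cst, p, hRP⟩ := rp_all (H 0 0) (H 0 1) (H 1 0) (H 1 1)
  refine ⟨1 / (((Cst : ℝ) + 1) * 2 ^ p), (p : ℝ) + 1, by positivity, by positivity, ?_⟩
  intro n hn ε hε0 hε1 A hdist
  have hn0 : (0 : ℝ) < n := by exact_mod_cast hn
  have : Nonempty (Fin n) := ⟨⟨0, hn⟩⟩
  set δ := pr (fun x : (Fin n × Fin n) × (Fin n × Fin n) =>
        CpH (H 0 0) (H 0 1) (H 1 0) (H 1 1) (fun r c => A r c = true) x.1.1 x.1.2 x.2.1 x.2.2)
    with hδ
  have hδ0 : 0 ≤ δ := pr_nonneg _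
  set K : ℕ := ⌈1 / ε⌉₊ with hK
  have hK1 : 1 ≤ K := by
    rw [hK, Nat.one_le_ceil_iff]
    positivity
  have hKε : 1 / ε ≤ K := Nat.le_ceil _
  have hK0 : (0 : ℝ) < K := by exact_mod_cast hK1
  have hK2 : (K : ℝ) ≤ 2 / ε := by
    have h1 : (K : ℝ) < 1 / ε + 1 := Nat.ceil_lt_add_one (by positivity)
    have h2 : 1 ≤ 1 / ε := by rw [le_div_iff₀ hε0]; linarith
    have h3 : 2 / ε = 1 / ε + 1 / ε := by ring
    linarith
  have hmain : 1 ≤ (Cst : ℝ) * (K : ℝ) ^ p * δ := by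
    by_contra hlt
    push Not at hlt
    obtain ⟨B, hB, hd⟩ := hRP (Fin n) (Fin n) rfl (fun r c => A r c = true) K hK1 hlt
    let B' : Matrix (Fin n) (Fin n) Bool := fun r c => decide (B r c)
    have hB' : ∀ r c, (B' r c = true) ↔ B r c := fun r c => decide_eq_true_iff
    have hfree : IsFree H B' := by
      unfold IsFree copyCount
      rw [Nat.card_eq_zero]
      left
      refine ⟨fun q => ?_⟩
      obtain ⟨q, hq⟩ := q
      rw [isCopy_iff] at hq
      simp only [hB'] at hq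
      exact hB _ _ _ _ hq
    have hle : freeDist H A ≤ (diffCount A B' : ℝ) / (n : ℝ) ^ 2 := by
      unfold freeDist
      gcongr
      exact Nat.sInf_le ⟨B', hfree, rfl⟩
    rw [diffCount_eq hn, mul_div_assoc, div_self (by positivity), mul_one] at hle
    simp only [hB'] at hle
    have h1 : ε * K < 1 := lt_of_le_of_lt (mul_le_mul_of_nonneg_right (hdist.trans hle) hK0.le) hd
    have h2 : 1 ≤ ε * K := by
      rw [div_le_iff₀ hε0] at hKε
      linarith
    linarith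
  rw [copyCount_eq hn, ← hδ]
  have hpow : (n : ℝ) ^ (2 * 2) = (n : ℝ) ^ 4 := by norm_num
  rw [hpow]
  apply mul_le_mul_of_nonneg_right _ (by positivity)
  have hεp : ε ^ ((p : ℝ) + 1) ≤ ε ^ p := by
    rw [← Real.rpow_natCast ε p]
    apply Real.rpow_le_rpow_of_exponent_ge hε0 hε1.le
    linarith
  have hKp : (K : ℝ) ^ p ≤ 2 ^ p / ε ^ p := by
    rw [← div_pow]
    exact pow_le_pow_left₀ hK0.le hK2 p
  have h3 : 1 ≤ ((Cst : ℝ) + 1) * (2 ^ p / ε ^ p) * δ := by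
    refine hmain.trans ?_
    gcongr
    linarith
  have hεp0 : 0 < ε ^ p := by positivity
  calc 1 / (((Cst : ℝ) + 1) * 2 ^ p) * ε ^ ((p : ℝ) + 1)
      ≤ 1 / (((Cst : ℝ) + 1) * 2 ^ p) * ε ^ p := by gcongr
    _ ≤ 1 / (((Cst : ℝ) + 1) * 2 ^ p) * ε ^ p * (((Cst : ℝ) + 1) * (2 ^ p / ε ^ p) * δ) :=
        le_mul_of_one_le_right (by positivity) h3
    _ = δ := by
        field_simp

end Vale.Agent.Results.P037.TwoByTwo
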